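import Vale.Agent.P122.E.Defs
import Vale.Agent.P122.H540.PNu

/-!
# P122 / H540 : tools for `Cnt`, `Rare` (helper540)
-/

set_option autoImplicit false

namespace Vale.Agent.P122.H540

open Filter Topology Finset Vale.Agent.P127 Vale.Agent.P127.Stk Vale.Agent.P127.U Vale.Agent.P127.U.Sys
  Vale.Agent.P122.C2 Vale.Agent.P122.E

section fin

variable {Ω : Type} [Fintype Ω] {α : Type*} (P : Law Ω)

theorem H_eq_hc (X : Ω → α) : P.H X = Stk.hc P X (fun _ => ()) := by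
  refine le_antisymm ?_ (Stk.hc_le_H P X _)
  have h1 : P.H (fun _ : Ω => ()) = 0 := by
    have h2 : P.H (fun _ : Ω => ()) ≤ Real.log (Fintype.card Unit) := P.H_le_log_card _
    simp only [Fintype.card_unit, Nat.cast_one, Real.log_one] at h2
    exact le_antisymm h2 (P.H_nonneg _)
  have h3 : P.H X ≤ P.H (fun ω => (X ω, ())) := Stk.H_mono' P (fun ω ω' _ _ e => congrArg Prod.fst e)
  unfold Stk.hc
  rw [h1]
  linarith

theorem exists_pos : ∃ ω, 0 < P.w ω := by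
  by_contra hcon
  push Not at hcon
  have : ∑ ω, P.w ω ≤ 0 := Finset.sum_nonpos fun ω _ => hcon ω
  rw [P.sum_one] at this
  linarith

end fin

section sys

variable {S : Sys} {α β γ δ : Type*}

theorem nm_eq (S : Sys) (i : ℕ) : S.nm i = (S.L i : ℝ) * Real.log 2 := rfl

/-- finite form of `Cnt` -/
theorem fin_hc_le {X : S.RV α} {Z : S.RV β} {r : ℝ} {i : ℕ}
    (h : ∀ ω, 0 < (S.P i).w ω → ∃ U : Finset α, (U.card : ℝ) ≤ (2 : ℝ) ^ (r * S.L i) ∧
      ∀ ω', 0 < (S.P i).w ω' → Z i ω' = Z i ω → X i ω' ∈ U) :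
    Stk.hc (S.P i) (X i) (Z i) ≤ r * S.nm i := by
  obtain ⟨ω0, hω0⟩ := exists_pos (S.P i)
  have h1 := Stk.hc_le_log (S.P i) (X i) (Z i) ⌊(2 : ℝ) ^ (r * S.L i)⌋₊ (fun ω hω => by
    obtain ⟨U, u1, u2⟩ := h ω hω
    exact ⟨U, Nat.le_floor u1, u2⟩)
  obtain ⟨U, u1, u2⟩ := h ω0 hω0
  have h2 : 1 ≤ ⌊(2 : ℝ) ^ (r * S.L i)⌋₊ :=
    (Finset.card_pos.2 ⟨_, u2 ω0 hω0 rfl⟩).trans_le (Nat.le_floor u1)
  have h3 : Real.log (⌊(2 : ℝ) ^ (r * S.L i)⌋₊ : ℝ) ≤ Real.log ((2 : ℝ) ^ (r * S.L i)) :=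
    Real.log_le_log (by exact_mod_cast h2) (Nat.floor_le (by positivity))
  rw [Real.log_rpow (by norm_num)] at h3
  rw [nm_eq]
  linarith

theorem tame_of_cnt {X : S.RV α} {r : ℝ} (h : Cnt S X (one (S := S)) r) : Tame X := by
  refine ⟨r + 1, ?_⟩
  filter_upwards [h 1 one_pos] with i hi
  rw [H_eq_hc]
  exact fin_hc_le (X := X) (Z := one) hi

theorem hc_le_of_cnt {X : S.RV α} {Z : S.RV β} {r : ℝ} (hX : Tame X) (h : Cnt S X Z r) :
    S.hc X Z ≤ r := by
  refine le_of_forall_pos_le_add fun ε hε => ?_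
  refine ulim_le_const (UB.hc hX Z) ?_
  filter_upwards [h ε hε, S.nm_pos] with i hi hp
  rw [div_le_iff₀ hp]
  exact fin_hc_le hi

theorem Sys_tame_fn {X : S.RV α} {Y : S.RV β} (h : Tame Y) (hf : ∀ i, ∃ f : β → α, ∀ ω, X i ω = f (Y i ω)) :
    Tame X :=
  h.mono (Eventually.of_forall fun i ω ω' _ _ e => by
    obtain ⟨f, hf⟩ := hf i
    rw [hf, hf, e])

theorem prb_eq (S : Sys) (E : ∀ i, S.Ω i → Prop) (i : ℕ) : prb S E i = prE (S.P i) (E i) := by
  classical
  unfold prb Law.ex prE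
  rw [Finset.sum_filter]
  refine Finset.sum_congr rfl fun ω _ => ?_
  by_cases hE : E i ω <;> simp [hE]

theorem prb_mono {E E' : ∀ i, S.Ω i → Prop} {i : ℕ}
    (h : ∀ ω, 0 < (S.P i).w ω → E i ω → E' i ω) : prb S E i ≤ prb S E' i := by
  classical
  unfold prb
  refine (S.P i).ex_mono fun ω hω => ?_
  by_cases hE : E i ω
  · simp [hE, h ω hω hE]
  · simp only [hE, if_false]
    split_ifs <;> norm_num

theorem Rare.mono {E E' : ∀ i, S.Ω i → Prop} (hE : Rare S E')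
    (h : ∀ᶠ i in (uf : Filter ℕ), ∀ ω, 0 < (S.P i).w ω → E i ω → E' i ω) : Rare S E := by
  obtain ⟨η, h0, h1⟩ := hE
  refine ⟨η, h0, ?_⟩
  filter_upwards [h1, h] with i h2 h3
  exact (prb_mono h3).trans h2

/-- entropy with a rare exceptional set -/
theorem hc_zero_rare {X : S.RV α} {Y : S.RV β} {E : ∀ i, S.Ω i → Prop} (hE : Rare S E) (c C : ℝ)
    (hC : 0 ≤ C)
    (h : ∀ᶠ i in (uf : Filter ℕ), Stk.hc (S.P i) (X i) (Y i) ≤ c + prb S E i * (C * S.nm i)) :
    S.hc X Y = 0 := by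
  obtain ⟨η, h0, h1⟩ := hE
  have ht : Tendsto (fun i => c / S.nm i + (2 : ℝ) ^ (-(η * S.L i)) * C) (uf : Filter ℕ) (𝓝 (0 + 0 * C)) := by
    refine (S.const_div_nm c).add (Tendsto.mul_const C ?_)
    have hL : Tendsto (fun i => (S.L i : ℝ)) (uf : Filter ℕ) atTop :=
      tendsto_natCast_atTop_atTop.comp S.Ltop
    have h2 : Tendsto (fun x : ℝ => (2 : ℝ) ^ (-(η * x))) atTop (𝓝 0) := by
      have : Tendsto (fun x : ℝ => η * x) atTop atTop := tendsto_id.const_mul_atTop h0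
      have h3 : Tendsto (fun x : ℝ => (2 : ℝ) ^ (-x)) atTop (𝓝 0) := by
        have e : (fun x : ℝ => (2 : ℝ) ^ (-x)) = fun x : ℝ => Real.exp (-(Real.log 2 * x)) := by
          funext x
          rw [Real.rpow_def_of_pos (by norm_num)]
          congr 1
          ring
        rw [e]
        refine Real.tendsto_exp_atBot.comp (tendsto_neg_atTop_atBot.comp ?_)
        exact tendsto_id.const_mul_atTop (Real.log_pos (by norm_num))
      exact h3.comp this
    exact h2.comp hL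
  rw [zero_mul, add_zero] at ht
  refine ulim_eq (squeeze_zero' ?_ ?_ ht)
  · filter_upwards [S.nm_pos] with i hi
    exact div_nonneg (Stk.hc_nonneg _ _ _) hi.le
  · filter_upwards [S.nm_pos, h, h1] with i hi h2 h3
    rw [div_le_iff₀ hi]
    have h4 : prb S E i * (C * S.nm i) ≤ (2 : ℝ) ^ (-(η * S.L i)) * (C * S.nm i) :=
      mul_le_mul_of_nonneg_right h3 (mul_nonneg hC hi.le)
    have h5 : (c / S.nm i + (2 : ℝ) ^ (-(η * S.L i)) * C) * S.nm i =
        c + (2 : ℝ) ^ (-(η * S.L i)) * (C * S.nm i) := by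
      rw [add_mul, div_mul_cancel₀ _ hi.ne']
      ring
    linarith

/-- finite upper bound with a rare exceptional set -/
theorem hc_le_rare {X : S.RV α} {Y : S.RV β} {E : ∀ i, S.Ω i → Prop} (hX : Tame X) (hE : Rare S E)
    (r c C : ℝ) (hC : 0 ≤ C)
    (h : ∀ᶠ i in (uf : Filter ℕ), Stk.hc (S.P i) (X i) (Y i) ≤
      r * S.nm i + c + prb S E i * (C * S.nm i)) :
    S.hc X Y ≤ r := by
  obtain ⟨η, h0, h1⟩ := hE
  have ht : Tendsto (fun i => c / S.nm i + (2 : ℝ) ^ (-(η * S.L i)) * C) (uf : Filter ℕ) (𝓝 (0 + 0 * C)) := by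
    refine (S.const_div_nm c).add (Tendsto.mul_const C ?_)
    have hL : Tendsto (fun i => (S.L i : ℝ)) (uf : Filter ℕ) atTop :=
      tendsto_natCast_atTop_atTop.comp S.Ltop
    have h2 : Tendsto (fun x : ℝ => (2 : ℝ) ^ (-(η * x))) atTop (𝓝 0) := by
      have : Tendsto (fun x : ℝ => η * x) atTop atTop := tendsto_id.const_mul_atTop h0
      have h3 : Tendsto (fun x : ℝ => (2 : ℝ) ^ (-x)) atTop (𝓝 0) := by
        have e : (fun x : ℝ => (2 : ℝ) ^ (-x)) = fun x : ℝ => Real.exp (-(Real.log 2 * x)) := by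
          funext x
          rw [Real.rpow_def_of_pos (by norm_num)]
          congr 1
          ring
        rw [e]
        refine Real.tendsto_exp_atBot.comp (tendsto_neg_atTop_atBot.comp ?_)
        exact tendsto_id.const_mul_atTop (Real.log_pos (by norm_num))
      exact h3.comp this
    exact h2.comp hL
  rw [zero_mul, add_zero] at ht
  have hr := ulim_le_of_sub (UB.hc hX Y) (UB.const r) ht (by
    filter_upwards [S.nm_pos, h, h1] with i hi h2 h3
    rw [div_le_iff₀ hi]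
    have h4 : prb S E i * (C * S.nm i) ≤ (2 : ℝ) ^ (-(η * S.L i)) * (C * S.nm i) :=
      mul_le_mul_of_nonneg_right h3 (mul_nonneg hC hi.le)
    have h5 : (r + (c / S.nm i + (2 : ℝ) ^ (-(η * S.L i)) * C)) * S.nm i =
        r * S.nm i + c + (2 : ℝ) ^ (-(η * S.L i)) * (C * S.nm i) := by
      rw [add_mul, add_mul, div_mul_cancel₀ _ hi.ne']
      ring
    linarith)
  rwa [ulim_const] at hr

end sys

end Vale.Agent.P122.H540
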