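import Vale.Agent.P122.H540.Spec
import Vale.Agent.P122.H540.Tools
import Vale.Agent.P122.H518.E12

/-!
# P122 / H540 : `StDE`, and the chain of the position `StPch` (helper540)
-/

set_option autoImplicit false

namespace Vale.Agent.P122.H540

open Filter Topology Finset Vale.Agent.P127 Vale.Agent.P127.Stk Vale.Agent.P127.U Vale.Agent.P127.U.Sys
  Vale.Agent.P122.C2 Vale.Agent.P122.E

/-- quotient by a power of two -/
theorem div_bd (o : ℤ) (d : ℕ) :
    ((o / 2 ^ d : ℤ) : ℝ) * 2 ^ d ≤ o ∧ (o : ℝ) ≤ ((o / 2 ^ d : ℤ) : ℝ) * 2 ^ d + 2 ^ d := by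
  have hDp : (0 : ℤ) < 2 ^ d := by positivity
  have h1 : (o / 2 ^ d) * 2 ^ d ≤ o := Int.ediv_mul_le _ hDp.ne'
  have h2 : o < (o / 2 ^ d) * 2 ^ d + 2 ^ d := by
    have := Int.lt_ediv_add_one_mul_self o hDp
    linarith
  have h1' : (((o / 2 ^ d : ℤ) * 2 ^ d : ℤ) : ℝ) ≤ o := by exact_mod_cast h1
  have h2' : ((o : ℤ) : ℝ) ≤ (((o / 2 ^ d : ℤ) * 2 ^ d + 2 ^ d : ℤ) : ℝ) := by
    exact_mod_cast h2.le
  push_cast at h1' h2'
  exact ⟨h1', h2'⟩

theorem div_close {o o' : ℤ} {d m : ℕ} (h : |(o : ℝ) - o'| ≤ m * 2 ^ d) :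
    o / 2 ^ d ∈ Finset.Icc (o' / 2 ^ d - ((m : ℤ) + 1)) (o' / 2 ^ d + ((m : ℤ) + 1)) := by
  obtain ⟨a1, a2⟩ := div_bd o d
  obtain ⟨b1, b2⟩ := div_bd o' d
  have hp : (0 : ℝ) < 2 ^ d := by positivity
  rw [abs_le] at h
  set q : ℤ := o / 2 ^ d
  set q' : ℤ := o' / 2 ^ d
  have h1 : ((q : ℝ) - q') * 2 ^ d ≤ (m + 1) * 2 ^ d := by nlinarith
  have h2 : ((q' : ℝ) - q) * 2 ^ d ≤ (m + 1) * 2 ^ d := by nlinarith
  have h3 : (q : ℝ) - q' ≤ m + 1 := le_of_mul_le_mul_right h1 hp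
  have h4 : (q' : ℝ) - q ≤ m + 1 := le_of_mul_le_mul_right h2 hp
  have h3' : q - q' ≤ (m : ℤ) + 1 := by exact_mod_cast h3
  have h4' : q' - q ≤ (m : ℤ) + 1 := by exact_mod_cast h4
  rw [Finset.mem_Icc]
  constructor <;> linarith

section flg

variable {K : ℕ} (F : Flg K)

theorem C_nonneg : 0 ≤ F.C := by
  have h := (F.slp 0).colip 0 (fun _ => 0) (fun _ => 0) (Nat.zero_le _)
    (fun k => by simp) (fun k => by simp)
  simpa using h

theorem ev_n : ∀ᶠ a in (uf : Filter ℕ), 1 ≤ F.n a := by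
  filter_upwards [F.S.L_pos] with a ha
  rw [F.L_eq a] at ha
  exact Nat.pos_of_mul_pos_left ha

theorem flg_pth (a : ℕ) (ω : F.S.Ω a) (hω : 0 < (F.S.P a).w ω) :
    Pth (F.n a) K (F.s a) fun c => F.N c a ω where
  step := fun c hc => (F.step a ω hω c hc).2
  par := fun c hc => funext fun k => H518.kids_div (F.step a ω hω c hc).1 k
  cap := by
    intro c hc
    induction c with
    | zero =>
      intro k
      have h1 := (F.root a ω hω).1
      show 0 ≤ (F.N 0 a ω).τ k ∧ (F.N 0 a ω).τ k < 2 ^ (0 * F.n a)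
      rw [h1]
      simp
    | succ c ih =>
      intro k
      obtain ⟨h0, h1⟩ := ih (by omega) k
      have h2 := Fintype.mem_piFinset.1 (F.step a ω hω c (by omega)).1 k
      rw [Finset.mem_Ico] at h2
      have h3 : (0 : ℤ) < 2 ^ F.n a := by positivity
      refine ⟨(mul_nonneg h3.le h0).trans h2.1, h2.2.trans_le ?_⟩
      have h4 : (2 : ℤ) ^ ((c + 1) * F.n a) = 2 ^ F.n a * 2 ^ (c * F.n a) := by
        rw [← pow_add]
        congr 1
        ring
      rw [h4]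
      exact mul_le_mul_of_nonneg_left (by simpa using h1) h3.le

/-- positions of the tubes of level `i` with the same tube of level `j` and the same time block -/
theorem o_close {a : ℕ} (hn : 1 ≤ F.n a) {ω ω' : F.S.Ω a} (hω : 0 < (F.S.P a).w ω)
    (hω' : 0 < (F.S.P a).w ω') {i j : ℕ} (hij : i ≤ j) (hj : j ≤ K)
    (hT : (F.N i a ω).T = (F.N i a ω').T) (hN : F.N j a ω = F.N j a ω') (k : Fin 2) :
    |((F.N i a ω).o k : ℝ) - (F.N i a ω').o k| ≤ 4 * (2 + F.C) * 2 ^ ((j - i) * F.n a) := by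
  have h1 := (flg_pth F a ω hω).axp_le (F.slp a) (C_nonneg F) hn hij hj k
  have h2 := (flg_pth F a ω' hω').axp_le (F.slp a) (C_nonneg F) hn hij hj k
  have ht : tm (F.n a) i (F.N i a ω) = tm (F.n a) i (F.N i a ω') := by
    unfold tm
    rw [hT]
  rw [hN, ht] at h1
  have hp : (0 : ℝ) < 2 ^ (i * F.n a) := by positivity
  have e1 : (2 : ℝ) ^ (j * F.n a) = 2 ^ ((j - i) * F.n a) * 2 ^ (i * F.n a) := by
    rw [← pow_add, ← Nat.add_mul]
    congr 2
    omega
  rw [e1] at h1 h2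
  have h3 : |(((F.N i a ω).o k : ℝ) - (F.N i a ω').o k) * 2 ^ (i * F.n a)| ≤
      4 * (2 + F.C) * 2 ^ ((j - i) * F.n a) * 2 ^ (i * F.n a) := by
    rw [abs_le] at h1 h2 ⊢
    constructor <;> nlinarith
  rw [abs_mul, abs_of_pos hp] at h3
  exact le_of_mul_le_mul_right h3 hp

/-- the piece is determined by the tube of level `j` and the time block of level `i` -/
theorem sig_zero {i j : ℕ} (hij : i ≤ j) (hj : j ≤ K) :
    F.S.hc (F.sig i j) (Sys.pr (F.T i) (F.N j)) = 0 := by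
  classical
  set m : ℕ := ⌈4 * (2 + F.C)⌉₊ with hm
  refine hc_zero_of_le (Real.log (((2 * m + 3) * (2 * m + 3) : ℕ) : ℝ)) ?_
  filter_upwards [ev_n F] with a hn
  refine Stk.hc_le_log _ _ _ _ fun ω hω => ?_
  set d := (j - i) * F.n a with hd
  let W : Fin 2 → Finset ℤ := fun k => Finset.Icc ((F.N i a ω).o k / 2 ^ d - ((m : ℤ) + 1))
    ((F.N i a ω).o k / 2 ^ d + ((m : ℤ) + 1))
  refine ⟨(Fintype.piFinset W).image fun z => ⟨fun k => (F.N i a ω).τ k / 2 ^ d, z, (F.N i a ω).T⟩,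
    ?_, fun ω' hω' e => ?_⟩
  · refine Finset.card_image_le.trans ?_
    rw [Fintype.card_piFinset, Fin.prod_univ_two]
    simp only [W, card_win]
    exact le_rfl
  · have e1 : (F.N i a ω').T = (F.N i a ω).T := congrArg Prod.fst e
    have e2 : F.N j a ω' = F.N j a ω := congrArg Prod.snd e
    have e3 : (F.N i a ω').τ = (F.N i a ω).τ :=
      (flg_pth F a ω' hω').τ_inj (flg_pth F a ω hω) hij hj (congrArg Nd.τ e2)
    rw [Finset.mem_image]
    refine ⟨fun k => (F.N i a ω').o k / 2 ^ d, ?_, ?_⟩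
    · rw [Fintype.mem_piFinset]
      intro k
      refine div_close ?_
      have h1 := o_close F hn hω' hω hij hj e1 e2 k
      have h2 : 4 * (2 + F.C) ≤ (m : ℝ) := Nat.le_ceil _
      exact h1.trans (mul_le_mul_of_nonneg_right h2 (by positivity))
    · unfold Flg.sig
      rw [← e1, ← e3]

end flg

/-- **StDE** -/
theorem stDE : StDE := by
  intro K F J θ H e W kk jj hK R i j hi hij hj2 hj
  have h := H518.cts hK R
  have h1 := h.En_sub hij hj
  have h2 := h.Cn_ge hij hj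
  have e1 : H518.Cts.En K H J θ j - H518.Cts.En K H J θ i = nE K J θ H j - nE K J θ H i := rfl
  have e2 : H518.Cts.Dn F.S K F.N F.T i j = F.D i j := rfl
  rw [e1, e2] at h1
  have tN := h.tre.tN i (hij.trans hj)
  have tT := h.tre.tT (hij.trans hj)
  have tNj := h.tre.tN j hj
  have h3 : F.S.hc (F.N i) (Sys.pr (F.T i) (F.N j)) ≤ F.S.hc (F.N i) (Sys.pr (F.sig i j) (F.N j)) := by
    have tsig : Tame (F.sig i j) := tN.mono (Eventually.of_forall fun a _ _ _ _ e => by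
      have e' : F.N i a _ = F.N i a _ := e
      unfold Flg.sig
      rw [e'])
    have h4 := hc_le_add tN tsig (Sys.pr (F.T i) (F.N j))
    rw [sig_zero F hij hj, add_zero] at h4
    refine h4.trans (hc_mono_right tN ?_)
    exact Eventually.of_forall fun a ω ω' _ _ e => by
      have e1 := congrArg Prod.fst e
      have e2 := congrArg (fun q => q.2.2) e
      exact Prod.ext e1 e2
  have h5 : H518.Cts.Cn F.S K F.N F.T i j = 2 * ((j : ℝ) - i) / K -
    F.S.hc (F.N i) (Sys.pr (F.T i) (F.N j)) := rfl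
  constructor
  · linarith
  · rw [h5] at h1
    linarith

/-! ### the chain of the position -/

theorem chain_le {S : Sys} {β γ : Type*} {X : ℕ → S.RV β} {Z : S.RV γ} {r : ℕ → ℝ} {i j : ℕ} (hij : i ≤ j)
    (tX : ∀ c, c ≤ j → Tame (X c))
    (h : ∀ c, i ≤ c → c < j → S.hc (X c) (Sys.pr (X (c + 1)) Z) ≤ r c) :
    S.hc (X i) Z ≤ ∑ c ∈ Ico i j, r c + S.hc (X j) Z := by
  induction j, hij using Nat.le_induction with
  | base => simp
  | succ j hij ih =>
    have h1 := ih (fun c hc => tX c (by omega)) (fun c h1 h2 => h c h1 (by omega))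
    have h2 := hc_le_add (tX j (by omega)) (tX (j + 1) le_rfl) Z
    have h3 := h j hij (by omega)
    rw [sum_Ico_succ_top hij]
    linarith

theorem sin_tri (a b c : ℝ) : |Real.sin (a - b)| ≤ |Real.sin (c - b)| + |Real.sin (c - a)| := by
  have h1 : a - b = (c - b) - (c - a) := by ring
  rw [h1, Real.sin_sub]
  refine (abs_sub _ _).trans ?_
  rw [abs_mul, abs_mul]
  have h2 := Real.abs_cos_le_one (c - a)
  have h3 := Real.abs_cos_le_one (c - b)
  have h4 := abs_nonneg (Real.sin (c - b))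
  have h5 := abs_nonneg (Real.sin (c - a))
  nlinarith

/-- the number of values `2 (2 2^n) + 3` costs at most `4 nm` -/
theorem log_bad_le {K : ℕ} (F : Flg K) {a : ℕ} (hK : 1 ≤ K) (hn : 1 ≤ F.n a) :
    Real.log ((2 * (2 * 2 ^ F.n a) + 3 : ℕ) : ℝ) ≤ 4 * F.S.nm a := by
  have h0 : (2:ℝ) ≤ 2 ^ F.n a := by
    calc (2:ℝ) = 2 ^ 1 := by norm_num
      _ ≤ 2 ^ F.n a := pow_le_pow_right₀ (by norm_num) hn
  have h1 : (((2 * (2 * 2 ^ F.n a) + 3 : ℕ)) : ℝ) ≤ 2 ^ (F.n a + 3) := by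
    push_cast
    rw [pow_add]
    linarith
  have h2 := Real.log_le_log (by positivity) h1
  rw [Real.log_pow] at h2
  refine h2.trans ?_
  have hl : 0 < Real.log 2 := Real.log_pos (by norm_num)
  rw [nm_eq, F.L_eq a]
  push_cast
  have h3 : (1:ℝ) ≤ F.n a := by exact_mod_cast hn
  have h4 : (1:ℝ) ≤ K := by exact_mod_cast hK
  have h5 : (F.n a : ℝ) + 3 ≤ 4 * (K * F.n a) := by nlinarith
  calc ((F.n a : ℝ) + 3) * Real.log 2 ≤ 4 * (K * F.n a) * Real.log 2 :=
        mul_le_mul_of_nonneg_right h5 hl.le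
    _ = 4 * (K * F.n a * Real.log 2) := by ring

/-- comparison of the frames `φ c` and `ψ` -/
theorem frame_rare {K : ℕ} {F : Flg K} {J θ H e : ℕ → ℝ} {W : ℕ → F.S.BX} {kk jj : ℕ → ℕ → ℕ} {κ c1 : ℝ}
    {φ : ℕ → ℕ → Nd → ℝ} {JF : ℕ → ℝ} (hK : 1 ≤ K) (R : RegB F J θ H e W kk jj κ c1 φ JF)
    (hc1 : 2 / K ≤ c1) {i j : ℕ} {ψ : ℕ → Nd → ℝ}
    (hfr : Fr F W c1 i j ψ) {c : ℕ} (h1 : 1 ≤ c) (h2 : 2 * i - j ≤ c) (h3 : c < K) (h3' : c ≤ j)
    (ht : Thin F e jj κ c1 c) :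
    Rare F.S fun a ω => 4 / 2 ^ F.n a < |Real.sin (φ c a (F.sg c a ω) - ψ a (F.sig i j a ω))| := by
  refine Rare.mono (hfr c h1 h2 h3') ?_
  filter_upwards [R.frame c h1 h3 ht] with a ha ω hω hb
  have h4 := sin_tri (φ c a (F.sg c a ω)) (ψ a (F.sig i j a ω)) ((W c a).θ ω)
  have h5 := ha ω hω
  have h6 : (2 : ℝ) ^ (-(c1 / 2 * F.S.L a)) ≤ 1 / 2 ^ F.n a := by
    rw [one_div, ← Real.rpow_natCast, ← Real.rpow_neg (by norm_num)]
    refine Real.rpow_le_rpow_of_exponent_le (by norm_num) ?_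
    rw [F.L_eq a]
    push_cast
    have h7 : (0:ℝ) < K := by exact_mod_cast hK
    rw [div_le_iff₀ h7] at hc1
    have h8 : (0:ℝ) ≤ F.n a := Nat.cast_nonneg _
    nlinarith
  have h7 : 4 / (2:ℝ) ^ F.n a = 4 * (1 / 2 ^ F.n a) := by ring
  rw [h7] at hb
  by_contra hcon
  push Not at hcon
  linarith

/-- **StPch** -/
theorem stPch : StPch := by
  intro K F J θ H e W kk jj κ c1 φ JF hK hc0 R i j u ψ hi hij hj2 hj hu hc1 hthin hfr
  have h := H518.cts hK R.toRegA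
  have tN : ∀ c, c ≤ j → Tame (F.N c) := fun c hc => h.tre.tN c (hc.trans hj)
  set Z : F.S.RV (ℤ × (Nd × Nd)) := Sys.pr (pD F i j u ψ) (Sys.pr (F.sig i j) (F.N j)) with hZ
  have hZT : Sys.Fn (F.T i) Z := Eventually.of_forall fun a ω ω' _ _ ez => by
    have e1 : F.sig i j a ω = F.sig i j a ω' := congrArg (fun q => q.2.1) ez
    exact (congrArg Nd.T e1 : (F.sig i j a ω).T = (F.sig i j a ω').T)
  have hsgZ : ∀ c, i ≤ c → c < j → Sys.Fn (F.sg c) (Sys.pr (F.N (c + 1)) Z) := by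
    intro c hic hcj
    refine H518.ftr (h.tre.gT c (by omega)) ?_
    refine H518.fpr (H518.ftr (h.tre.TT' hic (by omega)) (H518.ftr hZT (H518.fsnd _ _))) (H518.ffst _ _)
  have hstep : ∀ c, i ≤ c → c < j → F.S.hc (F.N c) (Sys.pr (F.N (c + 1)) Z) ≤
      if c < i + u then 2 / K - 2 * θ c else 1 / K - 2 * θ c + JF c := by
    intro c hic hcj
    by_cases hcu : c < i + u
    · rw [if_pos hcu]
      exact (hc_mono_right (tN c hcj.le) (hsgZ c hic hcj)).trans (H518.cnt_hc_le (R.B1 c (by omega)))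
    · rw [if_neg hcu]
      have ht := hthin c (by omega) hcj.le
      set ν : F.S.RV ℤ := fun a ω => ndg (φ c a (F.sg c a ω)) (F.N c a ω) with hν
      have tν : Tame ν := (tN c hcj.le).mono (Eventually.of_forall fun a ω ω' _ _ ee => by
        have e1 : F.N c a ω = F.N c a ω' := ee
        show ndg (φ c a ((F.N c a ω).sg _)) (F.N c a ω) = ndg (φ c a ((F.N c a ω').sg _)) (F.N c a ω')
        rw [e1])
      have h1 := hc_le_add (tN c hcj.le) tν (Sys.pr (F.N (c + 1)) Z)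
      have h2 : F.S.hc (F.N c) (Sys.pr ν (Sys.pr (F.N (c + 1)) Z)) ≤ F.S.hc (F.N c) (Sys.pr (F.sg c) ν) :=
        hc_mono_right (tN c hcj.le)
          (H518.fpr (H518.ftr (hsgZ c hic hcj) (H518.fsnd _ _)) (H518.ffst _ _))
      have h3 : F.S.hc (F.N c) (Sys.pr (F.sg c) ν) ≤ 1 / K - 2 * θ c + JF c :=
        H518.cnt_hc_le (R.B2 c (by omega) (by omega) ht)
      have h4 : F.S.hc ν (Sys.pr (F.N (c + 1)) Z) = 0 := by
        refine hc_zero_rare (frame_rare hK R hc1 hfr (by omega) (by omega) (by omega) hcj.le ht)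
          (Real.log ((2 * ⌈17 + 8 * F.C + 2 * 4⌉₊ + 3 : ℕ) : ℝ)) 4 (by norm_num) ?_
        filter_upwards [ev_n F] with a hn
        have h5 := p_step (F.S.P a) (N := fun c ω => F.N c a ω) (s := F.s a) (n := F.n a) (K := K)
          (C := F.C) (fun ω hω => flg_pth F a ω hω) (F.slp a) (C_nonneg F) hn (i := i) (u := u) (c := c)
          (by omega) (by omega) (fun ω => (F.sig i j a ω, F.N j a ω)) (fun ω => ψ a (F.sig i j a ω))
          (φ c a) (fun ω ω' _ _ ee => congrArg (fun q => q.1.T) ee)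
          (fun ω ω' _ _ ee => congrArg (fun q => ψ a q.1) ee) 4 (by norm_num)
        rw [prb_eq]
        refine h5.trans (add_le_add le_rfl ?_)
        exact mul_le_mul_of_nonneg_left (log_bad_le F hK hn) (prE_nonneg _ _)
      linarith
  have h1 := chain_le hij tN hstep
  have h2 : F.S.hc (F.N j) Z = 0 :=
    hc_fn (H518.ftr (H518.fsnd _ _) (H518.fsnd _ _))
  rw [h2, add_zero] at h1
  refine h1.trans (le_of_eq ?_)
  rw [← sum_Ico_consecutive _ (Nat.le_add_right i u) hu]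
  congr 1
  · refine sum_congr rfl fun c hc => ?_
    rw [mem_Ico] at hc
    rw [if_pos hc.2]
  · refine sum_congr rfl fun c hc => ?_
    rw [mem_Ico] at hc
    rw [if_neg (by omega)]

end Vale.Agent.P122.H540
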