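import Vale.Agent.P122.E.Defs
import Vale.Agent.P122.H540.PNu

/-!
# P122 / H540 : E9 = (P), the parts as exact Props (helper540)

All statements are for `1 ≤ i ≤ j ≤ 2 i`, `j ≤ K`, `i + u ≤ j`.  `ψ` is the common frame, a function of
the piece `F.sig i j`.

* `pD` : normal position of the tube of level `i` in units `2^((i + u) n)`; `qD b` : normal slope of the
  tube of level `i` with `b n` digits.
* `Fr` : the planks of the thin levels `2 i - j ≤ c ≤ j` are along `ψ` off rare events.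
* `StPsi` (540) : E8 → existence of `ψ`.
* `StPch` (540) : chain of the position.   `StDE` (540) : `D ≤ ΔE` and the lower bound of the tubes in the piece.
* `StQdg` (371) : chain of the slope.
* `StPQ` (812) : `(p, q)` is determined by the label of the plank and the piece up to `2 / K`.
* `StBox` (624) : E1, E3, E4 applied to the fattened plank.
* `StExc` (465) : `e ≤ log |W| / |S|`.
-/

set_option autoImplicit false

namespace Vale.Agent.P122.H540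

open Filter Topology Finset Vale.Agent.P127 Vale.Agent.P127.Stk Vale.Agent.P127.U Vale.Agent.P127.U.Sys
  Vale.Agent.P122.C2 Vale.Agent.P122.E

section defs

variable {K : ℕ} (F : Flg K)

/-- normal position in the frame `ψ`, units `2^((i + u) n)` -/
noncomputable def pD (i j u : ℕ) (ψ : ℕ → Nd → ℝ) : F.S.RV ℤ := fun a ω =>
  pdg (F.n a) u (ψ a (F.sig i j a ω)) (F.N i a ω)

/-- normal slope in the frame `ψ`, `b n` digits -/
noncomputable def qD (i j b : ℕ) (ψ : ℕ → Nd → ℝ) : F.S.RV ℤ := fun a ω =>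
  ⌊2 ^ (b * F.n a) * fn (ψ a (F.sig i j a ω)) (F.s a i (F.Y i a ω))⌋

/-- label of the plank of level `i` and its ball -/
noncomputable def vL (W : ℕ → F.S.BX) (i : ℕ) : F.S.RV (Lab × (ℤ × Z2)) := Sys.pr (BX.lab (W i)) (F.ball i)

/-- `ψ` is a common frame for the levels `c` in `[2 i - j, j]` -/
def Fr (W : ℕ → F.S.BX) (c1 : ℝ) (i j : ℕ) (ψ : ℕ → Nd → ℝ) : Prop :=
  ∀ c, 1 ≤ c → 2 * i - j ≤ c → c ≤ j →
    Rare F.S fun a ω => 3 * (2 : ℝ) ^ (-(c1 / 2 * F.S.L a)) < |Real.sin ((W c a).θ ω - ψ a (F.sig i j a ω))|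

end defs

/-- excess of a plank is at most `log |W| / |S|` (every regular system) -/
def StExc : Prop := AllA fun {K} F _ _ _ e _ kk jj =>
  ∀ c, c ≤ K → e c ≤ 2 * c / K - F.S.nu (kk c) - F.S.nu (jj c) + 1 / K

/-- the Kakeya step with the plank of level `i` fattened to the radius of level `j` -/
def StBox : Prop := AllA fun {K} F J θ H e W kk jj =>
  ∀ i j, 1 ≤ i → i ≤ j → j ≤ 2 * i → j ≤ K → F.S.nu (kk i) < ((2 * i - j : ℕ) : ℝ) / K →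
    nV K H e j ≤ nV K H e i + (F.S.nu (jj i) - F.S.nu fun a => min (jj i a) ((2 * i - j) * F.n a)) -
      F.S.hc (vL F W i) (F.sig i j) + 1 / K + 3 * F.D i j

/-- `p` and `q` are determined by the label of the plank and by the piece, up to `2 / K` -/
def StPQ : Prop := AllA fun {K} F J θ H e W kk jj =>
  ∀ (c1 : ℝ) (i j u : ℕ) (ψ : ℕ → Nd → ℝ), 1 ≤ i → i ≤ j → j ≤ 2 * i → j ≤ K → i + u ≤ j → 0 < c1 →
    ((j:ℝ) - i) / K ≤ c1 / 2 → |nα F jj i - ((i:ℝ) + u) / K| ≤ 1 / K → Fr F W c1 i j ψ →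
      F.S.hc (Sys.pr (pD F i j u ψ) (qD F i j (i - u) ψ)) (Sys.pr (vL F W i) (F.sig i j)) ≤ 2 / K

/-- data of the regular systems with frames -/
def AllB (P : ∀ {K : ℕ} (F : Flg K) (J θ H e : ℕ → ℝ) (_ : ℕ → F.S.BX) (_ _ : ℕ → ℕ → ℕ) (_ _ : ℝ) (_ : ℕ → ℕ → Nd → ℝ)
    (_ : ℕ → ℝ), Prop) : Prop :=
  ∀ {K : ℕ} (F : Flg K) (J θ H e : ℕ → ℝ) (W : ℕ → F.S.BX) (kk jj : ℕ → ℕ → ℕ) (κ c1 : ℝ) (φ : ℕ → ℕ → Nd → ℝ)
    (JF : ℕ → ℝ), 1 ≤ K → 0 < c1 → RegB F J θ H e W kk jj κ c1 φ JF → P F J θ H e W kk jj κ c1 φ JF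

/-- chain of the slope -/
def StQdg : Prop := AllB fun {K} F _ _ _ e W _ jj κ c1 _ JF =>
  ∀ (i j u : ℕ) (ψ : ℕ → Nd → ℝ), 1 ≤ i → i ≤ j → j ≤ 2 * i → j ≤ K → i + u ≤ j → 2 / K ≤ c1 →
    (∀ c, 2 * i - j ≤ c → c ≤ j → Thin F e jj κ c1 c) → Fr F W c1 i j ψ →
      ∑ c ∈ Ico (2 * i - j) (i - u), (if 1 ≤ c then JF c else 0) ≤ F.S.hc (qD F i j (i - u) ψ) (F.sig i j)

/-- chain of the position -/
def StPch : Prop := AllB fun {K} F _ θ _ e W _ jj κ c1 _ JF =>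
  ∀ (i j u : ℕ) (ψ : ℕ → Nd → ℝ), 1 ≤ i → i ≤ j → j ≤ 2 * i → j ≤ K → i + u ≤ j → 2 / K ≤ c1 →
    (∀ c, 2 * i - j ≤ c → c ≤ j → Thin F e jj κ c1 c) → Fr F W c1 i j ψ →
      F.S.hc (F.N i) (Sys.pr (pD F i j u ψ) (Sys.pr (F.sig i j) (F.N j))) ≤
        ∑ c ∈ Ico i (i + u), (2 / K - 2 * θ c) + ∑ c ∈ Ico (i + u) j, (1 / K - 2 * θ c + JF c)

/-- deficits: `D ≤ ΔE`, and the entropy of the tube in its piece -/
def StDE : Prop := AllA fun {K} F J θ H _ _ _ _ =>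
  ∀ i j, 1 ≤ i → i ≤ j → j ≤ 2 * i → j ≤ K →
    F.D i j ≤ nE K J θ H j - nE K J θ H i ∧
    2 * ((j:ℝ) - i) / K + F.D i j - 2 * ∑ c ∈ Ico i j, θ c - (nE K J θ H j - nE K J θ H i) ≤
      F.S.hc (F.N i) (Sys.pr (F.sig i j) (F.N j))

/-- existence of the common frame -/
def StPsi (κ C₀ : ℝ) : Prop := AllA fun {K} F _ _ _ e W _ jj =>
  ∀ (c1 : ℝ) (i j : ℕ), 0 < c1 → 1 ≤ i → i ≤ j → j ≤ 2 * i → j ≤ K → ((j:ℝ) - i) / K ≤ κ * c1 → C₀ / K ≤ c1 →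
    (∀ c, 2 * i - j ≤ c → c ≤ j → Thin F e jj κ c1 c) → ∃ ψ : ℕ → Nd → ℝ, Fr F W c1 i j ψ

end Vale.Agent.P122.H540
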