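import Vale.Agent.P122.H679.E9Fin
import Vale.Agent.P122.H465.Exc
import Vale.Agent.P122.K931.E4
import Vale.Agent.P122.S.Prof

/-! # P122 / H540 : E9 = (P) from the cap of the Kakeya functional and E8 (row E9, helper540) -/

set_option autoImplicit false

namespace Vale.Agent.P122.H540

open Vale.Agent.P127.U Vale.Agent.P122.E

/-- **E9** -/
theorem stE9 (hJ : ∀ β : ℝ, 0 < β → JF 2 β) (h8 : S.StE8) : S.StE9 :=
  H679.stE9_of (K931.e4 hJ) H465.stExc h8

end Vale.Agent.P122.H540
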