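import Vale.Agent.P122.H812.PQ
import Vale.Agent.P122.H465.E9

/-!
# P122 / H540 : the excess of a plank is small if the plank is small (helper540)
-/

set_option autoImplicit false

namespace Vale.Agent.P122.H540

open Filter Topology Finset Vale.Agent.P127 Vale.Agent.P127.Stk Vale.Agent.P127.U Vale.Agent.P127.U.Sys
  Vale.Agent.P122.C2 Vale.Agent.P122.E

/-- coordinates from a frame -/
theorem coord_le (χ B : ℝ) (v : Fin 2 → ℝ) (h0 : |fw χ v| ≤ B) (h1 : |fn χ v| ≤ B) (m : Fin 2) : |v m| ≤ 2 * B := by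
  have hB : 0 ≤ B := (abs_nonneg _).trans h0
  have hs := Real.abs_sin_le_one χ
  have hc := Real.abs_cos_le_one χ
  have hsc := Real.sin_sq_add_cos_sq χ
  have hm : v m = (if m = 0 then Real.cos χ * fw χ v - Real.sin χ * fn χ v
      else Real.sin χ * fw χ v + Real.cos χ * fn χ v) := by
    fin_cases m
    · simp only [Fin.zero_eta, if_true]
      unfold fw fn
      linear_combination (-(v 0)) * hsc
    · simp only [Fin.mk_one, if_neg (one_ne_zero (α := Fin 2))]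
      unfold fw fn
      linear_combination (-(v 1)) * hsc
  rw [hm]
  split_ifs
  · refine (abs_sub _ _).trans ?_
    rw [abs_mul, abs_mul]
    nlinarith [abs_nonneg (fw χ v), abs_nonneg (fn χ v)]
  · refine (abs_add_le _ _).trans ?_
    rw [abs_mul, abs_mul]
    nlinarith [abs_nonneg (fw χ v), abs_nonneg (fn χ v)]

theorem card_box (o : Z2) (A : ℕ) : (Fintype.piFinset fun k : Fin 2 => Finset.Icc (o k - (A:ℤ)) (o k + A)).card =
    (2 * A + 1) ^ 2 := by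
  have h1 : ∀ k : Fin 2, (Finset.Icc (o k - (A:ℤ)) (o k + A)).card = 2 * A + 1 := by
    intro k
    rw [Int.card_Icc]
    have : o k + (A:ℤ) + 1 - (o k - A) = ((2 * A + 1 : ℕ) : ℤ) := by
      push_cast
      ring
    rw [this, Int.toNat_natCast]
  rw [Fintype.card_piFinset, Finset.prod_congr rfl fun k _ => h1 k]
  simp

theorem mem_box {x o : ℤ} {A : ℕ} (h : |(x : ℝ) - o| ≤ A) : x ∈ Finset.Icc (o - (A:ℤ)) (o + A) := by
  rw [abs_le] at h
  rw [Finset.mem_Icc]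
  constructor
  · have : ((o - A : ℤ) : ℝ) ≤ x := by push_cast; linarith
    exact_mod_cast this
  · have : ((x : ℤ) : ℝ) ≤ (o + A : ℤ) := by push_cast; linarith
    exact_mod_cast this

/-- the node given the label of the plank and the ball -/
theorem cnt_W {K : ℕ} {F : Flg K} {J θ H e : ℕ → ℝ} {W : ℕ → F.S.BX} {kk jj : ℕ → ℕ → ℕ} (hK : 1 ≤ K)
    (R : RegA F J θ H e W kk jj) {c : ℕ} (hc : c ≤ K) :
    Cnt F.S (F.N c) (Sys.pr (BX.lab (W c)) (F.ball c)) (4 * ((c:ℝ) / K - F.S.nu (kk c))) := by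
  intro ε hε
  have hKp : (0:ℝ) < K := by exact_mod_cast hK
  have hub : UB fun a => (kk c a : ℝ) / F.S.L a := by
    refine UB.of_le (C := 1) (Eventually.of_forall fun a => by positivity) ?_
    filter_upwards [R.Wok c hc, F.S.L_pos] with a ha hL
    obtain ⟨ω, hω⟩ := H518.law_pos (F.S.P a)
    obtain ⟨-, -, -, -, h1, h2⟩ := ha ω hω
    have hL' : (0:ℝ) < F.S.L a := by exact_mod_cast hL
    rw [div_le_one hL', F.L_eq a]
    exact_mod_cast h1.trans (h2.trans (Nat.mul_le_mul_right _ hc))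
  have hkk : ∀ᶠ a in (uf : Filter ℕ), F.S.nu (kk c) - ε / 8 < (kk c a : ℝ) / F.S.L a :=
    lt_ulim_eventually hub (by
      show F.S.nu (kk c) - ε / 8 < F.S.nu (kk c)
      linarith)
  set A : ℕ := ⌈5 * F.C⌉₊ with hA
  have hcst : ∀ᶠ a in (uf : Filter ℕ), (25 * (2 * A + 1) ^ 2 : ℝ) ≤ (2:ℝ) ^ (ε / 2 * F.S.L a) := by
    have h1 : Tendsto (fun a => ε / 2 * (F.S.L a : ℝ)) (uf : Filter ℕ) atTop :=
      Tendsto.const_mul_atTop (by positivity) (tendsto_natCast_atTop_atTop.comp F.S.Ltop)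
    filter_upwards [h1.eventually_ge_atTop (Real.logb 2 (25 * (2 * A + 1) ^ 2))] with a ha
    calc (25 * (2 * A + 1) ^ 2 : ℝ) = (2:ℝ) ^ (Real.logb 2 (25 * (2 * A + 1) ^ 2)) :=
          (Real.rpow_logb (by norm_num) (by norm_num) (show (0:ℝ) < 25 * (2 * A + 1) ^ 2 by positivity)).symm
      _ ≤ _ := Real.rpow_le_rpow_of_exponent_le (by norm_num) ha
  filter_upwards [R.Wok c hc, hkk, hcst, F.S.L_pos] with a hW hkk hcst hL ω hω
  have hL' : (0:ℝ) < F.S.L a := by exact_mod_cast hL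
  obtain ⟨w1, w2, w3, w4, w5, w6⟩ := hW ω hω
  set n := F.n a with hn
  have hk : kk c a ≤ c * n := w5.trans w6
  obtain ⟨M, hM⟩ := Nat.exists_eq_add_of_le hk
  set S := F.N c a ω with hS
  refine ⟨((Fintype.piFinset fun k : Fin 2 => Finset.Icc (S.τ k - ((A * 2 ^ M : ℕ):ℤ)) (S.τ k + (A * 2 ^ M : ℕ))) ×ˢ
    (Fintype.piFinset fun k : Fin 2 => Finset.Icc (S.o k - ((2 * 2 ^ M : ℕ):ℤ)) (S.o k + (2 * 2 ^ M : ℕ)))).image
      fun p => (⟨p.1, p.2, S.T⟩ : Nd), ?_, ?_⟩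
  · have h1 : (((Fintype.piFinset fun k : Fin 2 => Finset.Icc (S.τ k - ((A * 2 ^ M : ℕ):ℤ)) (S.τ k + (A * 2 ^ M : ℕ))) ×ˢ
      (Fintype.piFinset fun k : Fin 2 => Finset.Icc (S.o k - ((2 * 2 ^ M : ℕ):ℤ)) (S.o k + (2 * 2 ^ M : ℕ)))).image
      fun p => (⟨p.1, p.2, S.T⟩ : Nd)).card ≤ (2 * (A * 2 ^ M) + 1) ^ 2 * (2 * (2 * 2 ^ M) + 1) ^ 2 := by
      refine Finset.card_image_le.trans ?_
      rw [Finset.card_product, card_box, card_box]
    have h2 : ((((2 * (A * 2 ^ M) + 1) ^ 2 * (2 * (2 * 2 ^ M) + 1) ^ 2 : ℕ)) : ℝ) ≤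
        (25 * (2 * A + 1) ^ 2) * (2:ℝ) ^ (4 * M) := by
      push_cast
      have h3 : (1:ℝ) ≤ 2 ^ M := one_le_pow₀ (by norm_num)
      have h4 : (2:ℝ) ^ (4 * M) = (2 ^ M) ^ 2 * (2 ^ M) ^ 2 := by ring
      have h5 : (2 * ((A:ℝ) * 2 ^ M) + 1) ^ 2 ≤ ((2 * A + 1) * 2 ^ M) ^ 2 :=
        pow_le_pow_left₀ (by positivity) (by nlinarith) 2
      have h6 : (2 * (2 * (2:ℝ) ^ M) + 1) ^ 2 ≤ (5 * 2 ^ M) ^ 2 :=
        pow_le_pow_left₀ (by positivity) (by nlinarith) 2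
      rw [h4]
      calc (2 * ((A:ℝ) * 2 ^ M) + 1) ^ 2 * (2 * (2 * (2:ℝ) ^ M) + 1) ^ 2
          ≤ ((2 * A + 1) * 2 ^ M) ^ 2 * (5 * 2 ^ M) ^ 2 := by gcongr
        _ = _ := by ring
    refine le_trans (by exact_mod_cast h1) (h2.trans ?_)
    have h3 : (2:ℝ) ^ (4 * M) ≤ (2:ℝ) ^ ((4 * ((c:ℝ) / K - F.S.nu (kk c)) + ε / 2) * F.S.L a) := by
      rw [← Real.rpow_natCast]
      refine Real.rpow_le_rpow_of_exponent_le (by norm_num) ?_
      rw [lt_div_iff₀ hL'] at hkk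
      have h4 : ((c * n : ℕ) : ℝ) = (c:ℝ) / K * F.S.L a := by
        rw [F.L_eq a, ← hn]
        push_cast
        field_simp
      have h5 : ((c * n : ℕ) : ℝ) = kk c a + M := by exact_mod_cast hM
      push_cast
      nlinarith
    calc (25 * (2 * (A:ℝ) + 1) ^ 2) * (2:ℝ) ^ (4 * M)
        ≤ (2:ℝ) ^ (ε / 2 * F.S.L a) * (2:ℝ) ^ ((4 * ((c:ℝ) / K - F.S.nu (kk c)) + ε / 2) * F.S.L a) := by gcongr
      _ = _ := by
          rw [← Real.rpow_add (by norm_num)]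
          congr 1
          ring
  · intro ω' hω' ee
    obtain ⟨w1', w2', w3', w4', w5', w6'⟩ := hW ω' hω'
    have e1 : BX.lab (W c) a ω' = BX.lab (W c) a ω := congrArg Prod.fst ee
    have e2 : F.ball c a ω' = F.ball c a ω := congrArg Prod.snd ee
    have e3 : U.lab ((W c a).θ ω') (kk c a) (jj c a) (F.ln c a ω') =
        U.lab ((W c a).θ ω) (kk c a) (jj c a) (F.ln c a ω) := by
      have : U.lab ((W c a).θ ω') ((W c a).k ω') ((W c a).j ω') ((W c a).l ω') =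
        U.lab ((W c a).θ ω) ((W c a).k ω) ((W c a).j ω) ((W c a).l ω) := e1
      rwa [w3, w4, w1, w3', w4', w1'] at this
    obtain ⟨χ, -, a1, a2, a3, a4⟩ := H812.lab_cl e3
    have hkj : (1 / 2 : ℝ) ^ (jj c a) ≤ (1 / 2 : ℝ) ^ (kk c a) :=
      pow_le_pow_of_le_one (by norm_num) (by norm_num) w5
    have c1 := coord_le χ _ _ a1 (a2.trans hkj)
    have c2 := coord_le χ _ _ a3 (a4.trans hkj)
    have e4 : (F.N c a ω').T = S.T := congrArg Prod.fst e2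
    have e5 : ∀ k, (F.N c a ω').o k / 2 ^ (c * n) = S.o k / 2 ^ (c * n) := fun k => congrFun (congrArg Prod.snd e2) k
    have hp : (0:ℝ) < 2 ^ (c * n) := by positivity
    have hpk : (2:ℝ) ^ (c * n) * (1 / 2 : ℝ) ^ (kk c a) = 2 ^ M := by
      rw [hM, pow_add, one_div, inv_pow]
      field_simp
    have ho : ∀ k, |((F.N c a ω').o k : ℝ) - S.o k| ≤ (2 * 2 ^ M : ℕ) := by
      intro k
      have h1 := c1 k
      have h2 : (F.ln c a ω').1 k - (F.ln c a ω).1 k = (((F.N c a ω').o k : ℝ) - S.o k) / 2 ^ (c * n) :=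
        H812.fract_diff (e5 k)
      rw [h2, abs_div, abs_of_pos hp, div_le_iff₀ hp] at h1
      push_cast
      calc _ ≤ _ := h1
        _ = 2 * ((2:ℝ) ^ (c * n) * (1 / 2 : ℝ) ^ (kk c a)) := by ring
        _ = _ := by rw [hpk]
    have hτ : ∀ k, |((F.N c a ω').τ k : ℝ) - S.τ k| ≤ (A * 2 ^ M : ℕ) := by
      intro k
      have h1 := (F.slp a).colip c (F.N c a ω').τ S.τ hc (H812.cap_N F a hω' c hc) (H812.cap_N F a hω c hc)
      have hC := H812.C_nonneg F hK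
      have h3 : |F.s a c (F.N c a ω').τ 0 - F.s a c S.τ 0| ≤ 2 * (1 / 2 : ℝ) ^ (kk c a) := c2 0
      have h4 : |F.s a c (F.N c a ω').τ 1 - F.s a c S.τ 1| ≤ 2 * (1 / 2 : ℝ) ^ (kk c a) := c2 1
      have h5 : (2:ℝ) ^ (c * n) * (|F.s a c (F.N c a ω').τ 0 - F.s a c S.τ 0| +
          |F.s a c (F.N c a ω').τ 1 - F.s a c S.τ 1|) + 1 ≤ 5 * 2 ^ M := by
        have h6 : (1:ℝ) ≤ 2 ^ M := one_le_pow₀ (by norm_num)
        have h7 : (2:ℝ) ^ (c * n) * (|F.s a c (F.N c a ω').τ 0 - F.s a c S.τ 0| +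
          |F.s a c (F.N c a ω').τ 1 - F.s a c S.τ 1|) ≤ 2 ^ (c * n) * (4 * (1 / 2 : ℝ) ^ (kk c a)) :=
          mul_le_mul_of_nonneg_left (by linarith) hp.le
        have h8 : (2:ℝ) ^ (c * n) * (4 * (1 / 2 : ℝ) ^ (kk c a)) = 4 * 2 ^ M := by
          rw [← hpk]
          ring
        linarith
      have h6 : |((F.N c a ω').τ k : ℝ) - S.τ k| ≤ |((F.N c a ω').τ 0 : ℝ) - S.τ 0| + |((F.N c a ω').τ 1 : ℝ) - S.τ 1| := by
        fin_cases k
        · exact le_add_of_nonneg_right (abs_nonneg _)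
        · exact le_add_of_nonneg_left (abs_nonneg _)
      push_cast
      calc _ ≤ _ := h6
        _ ≤ _ := h1
        _ ≤ F.C * (5 * 2 ^ M) := mul_le_mul_of_nonneg_left h5 hC
        _ = (5 * F.C) * 2 ^ M := by ring
        _ ≤ A * 2 ^ M := mul_le_mul_of_nonneg_right (Nat.le_ceil _) (by positivity)
    rw [Finset.mem_image]
    refine ⟨((F.N c a ω').τ, (F.N c a ω').o), ?_, ?_⟩
    · rw [Finset.mem_product]
      constructor
      · rw [Fintype.mem_piFinset]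
        exact fun k => mem_box (hτ k)
      · rw [Fintype.mem_piFinset]
        exact fun k => mem_box (ho k)
    · simp only
      rw [← e4]

/-- **weak bound of the excess** -/
theorem exc_le {K : ℕ} {F : Flg K} {J θ H e : ℕ → ℝ} {W : ℕ → F.S.BX} {kk jj : ℕ → ℕ → ℕ} (hK : 1 ≤ K)
    (R : RegA F J θ H e W kk jj) {c : ℕ} (hc : c ≤ K) :
    e c ≤ 4 * ((c:ℝ) / K - F.S.nu (kk c)) - (2 * c / K - F.S.nu (kk c) - F.S.nu (jj c)) + 1 / K := by
  have h := H518.cts hK R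
  have tN := h.tre.tN c hc
  have h1 := H518.cnt_hc_le (R.W1 c hc)
  have h2 := H518.cnt_hc_le (cnt_W hK R hc)
  have h3 := h.hN c hc
  have tLB : Tame (Sys.pr (BX.lab (W c)) (F.ball c)) := H518.cnt_tame (R.W1 c hc)
  have h4 := hc_le_add tN tLB (one (S := F.S))
  have h5 : F.S.hc (F.N c) (Sys.pr (Sys.pr (BX.lab (W c)) (F.ball c)) one) ≤
      F.S.hc (F.N c) (Sys.pr (BX.lab (W c)) (F.ball c)) :=
    hc_mono_right tN (H518.ffst _ _)
  have h8 : F.S.h (F.N c) = F.S.hc (F.N c) one := rfl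
  linarith

end Vale.Agent.P122.H540
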