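import Vale.Agent.P122.H540.SysA
import Vale.Agent.P122.H465.E9Defs

/-!
# P122 / H540 : `PHalf` (helper540)
-/

set_option autoImplicit false

namespace Vale.Agent.P122.H540

open Filter Topology Finset Vale.Agent.P127 Vale.Agent.P127.Stk Vale.Agent.P127.U Vale.Agent.P127.U.Sys
  Vale.Agent.P122.C2 Vale.Agent.P122.E

/-- chain of the position, frames compared directly -/
theorem pch {K : ℕ} {F : Flg K} {J θ H e : ℕ → ℝ} {W : ℕ → F.S.BX} {kk jj : ℕ → ℕ → ℕ} {κ c1 : ℝ}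
    {φ : ℕ → ℕ → Nd → ℝ} {JF : ℕ → ℝ} (hK : 1 ≤ K) (R : RegB F J θ H e W kk jj κ c1 φ JF) {i j u : ℕ}
    {ψ : ℕ → Nd → ℝ} (hi : 1 ≤ i) (hij : i ≤ j) (hj : j ≤ K) (hu : i + u ≤ j)
    (hthin : ∀ c, i + u ≤ c → c < j → Thin F e jj κ c1 c)
    (hfr : ∀ c, i + u ≤ c → c < j →
      Rare F.S fun a ω => 4 / 2 ^ F.n a < |Real.sin (φ c a (F.sg c a ω) - ψ a (F.sig i j a ω))|) :
    F.S.hc (F.N i) (Sys.pr (pD F i j u ψ) (Sys.pr (F.sig i j) (F.N j))) ≤
        ∑ c ∈ Ico i (i + u), (2 / K - 2 * θ c) + ∑ c ∈ Ico (i + u) j, (1 / K - 2 * θ c + JF c) := by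
  have h := H518.cts hK R.toRegA
  have tN : ∀ c, c ≤ j → Tame (F.N c) := fun c hc => h.tre.tN c (hc.trans hj)
  set Z : F.S.RV (ℤ × (Nd × Nd)) := Sys.pr (pD F i j u ψ) (Sys.pr (F.sig i j) (F.N j)) with hZ
  have hZT : Sys.Fn (F.T i) Z := Eventually.of_forall fun a ω ω' _ _ ez => by
    have e1 : F.sig i j a ω = F.sig i j a ω' := congrArg (fun q => q.2.1) ez
    exact (congrArg Nd.T e1 : (F.sig i j a ω).T = (F.sig i j a ω').T)
  have hsgZ : ∀ c, i ≤ c → c < j → Sys.Fn (F.sg c) (Sys.pr (F.N (c + 1)) Z) := by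
    intro c hic hcj
    refine H518.ftr (h.tre.gT c (by omega)) ?_
    refine H518.fpr (H518.ftr (h.tre.TT' hic (by omega)) (H518.ftr hZT (H518.fsnd _ _))) (H518.ffst _ _)
  have hstep : ∀ c, i ≤ c → c < j → F.S.hc (F.N c) (Sys.pr (F.N (c + 1)) Z) ≤
      if c < i + u then 2 / K - 2 * θ c else 1 / K - 2 * θ c + JF c := by
    intro c hic hcj
    by_cases hcu : c < i + u
    · rw [if_pos hcu]
      exact (hc_mono_right (tN c hcj.le) (hsgZ c hic hcj)).trans (H518.cnt_hc_le (R.B1 c (by omega)))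
    · rw [if_neg hcu]
      have ht := hthin c (by omega) hcj
      set ν : F.S.RV ℤ := fun a ω => ndg (φ c a (F.sg c a ω)) (F.N c a ω) with hν
      have tν : Tame ν := (tN c hcj.le).mono (Eventually.of_forall fun a ω ω' _ _ ee => by
        have e1 : F.N c a ω = F.N c a ω' := ee
        show ndg (φ c a ((F.N c a ω).sg _)) (F.N c a ω) = ndg (φ c a ((F.N c a ω').sg _)) (F.N c a ω')
        rw [e1])
      have h1 := hc_le_add (tN c hcj.le) tν (Sys.pr (F.N (c + 1)) Z)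
      have h2 : F.S.hc (F.N c) (Sys.pr ν (Sys.pr (F.N (c + 1)) Z)) ≤ F.S.hc (F.N c) (Sys.pr (F.sg c) ν) :=
        hc_mono_right (tN c hcj.le)
          (H518.fpr (H518.ftr (hsgZ c hic hcj) (H518.fsnd _ _)) (H518.ffst _ _))
      have h3 : F.S.hc (F.N c) (Sys.pr (F.sg c) ν) ≤ 1 / K - 2 * θ c + JF c :=
        H518.cnt_hc_le (R.B2 c (by omega) (by omega) ht)
      have h4 : F.S.hc ν (Sys.pr (F.N (c + 1)) Z) = 0 := by
        refine hc_zero_rare (hfr c (by omega) hcj)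
          (Real.log ((2 * ⌈17 + 8 * F.C + 2 * 4⌉₊ + 3 : ℕ) : ℝ)) 4 (by norm_num) ?_
        filter_upwards [ev_n F] with a hn
        have h5 := p_step (F.S.P a) (N := fun c ω => F.N c a ω) (s := F.s a) (n := F.n a) (K := K)
          (C := F.C) (fun ω hω => flg_pth F a ω hω) (F.slp a) (C_nonneg F) hn (i := i) (u := u) (c := c)
          (by omega) (by omega) (fun ω => (F.sig i j a ω, F.N j a ω)) (fun ω => ψ a (F.sig i j a ω))
          (φ c a) (fun ω ω' _ _ ee => congrArg (fun q => q.1.T) ee)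
          (fun ω ω' _ _ ee => congrArg (fun q => ψ a q.1) ee) 4 (by norm_num)
        rw [prb_eq]
        refine h5.trans (add_le_add le_rfl ?_)
        exact mul_le_mul_of_nonneg_left (log_bad_le F hK hn) (prE_nonneg _ _)
      linarith
  have h1 := chain_le hij tN hstep
  have h2 : F.S.hc (F.N j) Z = 0 :=
    hc_fn (H518.ftr (H518.fsnd _ _) (H518.fsnd _ _))
  rw [h2, add_zero] at h1
  refine h1.trans (le_of_eq ?_)
  rw [← sum_Ico_consecutive _ (Nat.le_add_right i u) hu]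
  congr 1
  · refine sum_congr rfl fun c hc => ?_
    rw [mem_Ico] at hc
    rw [if_pos hc.2]
  · refine sum_congr rfl fun c hc => ?_
    rw [mem_Ico] at hc
    rw [if_neg (by omega)]

/-- the rounding of the frames -/
theorem pow_frame {K : ℕ} (F : Flg K) (hK : 1 ≤ K) {c1 : ℝ} (hc1 : 2 / K ≤ c1) (a : ℕ) :
    (2 : ℝ) ^ (-(c1 / 2 * F.S.L a)) ≤ 1 / 2 ^ F.n a := by
  rw [one_div, ← Real.rpow_natCast, ← Real.rpow_neg (by norm_num)]
  refine Real.rpow_le_rpow_of_exponent_le (by norm_num) ?_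
  rw [F.L_eq a]
  push_cast
  have h7 : (0:ℝ) < K := by exact_mod_cast hK
  rw [div_le_iff₀ h7] at hc1
  have h8 : (0:ℝ) ≤ F.n a := Nat.cast_nonneg _
  nlinarith

/-- **PHalf** -/
theorem pHalf : H465.PHalf 1 2 := by
  intro K κ F J θ H e W kk jj c1 φ JF ψ i j u _ X
  have hK := X.K1
  have hKp : (0:ℝ) < K := by exact_mod_cast hK
  have hi : 1 ≤ i := by
    have := X.ij
    have := X.j2
    omega
  have h1 : F.S.hc (F.N i) (Sys.pr (pD F i j u ψ) (Sys.pr (F.sig i j) (F.N j))) ≤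
        ∑ c ∈ Ico i (i + u), (2 / K - 2 * θ c) + ∑ c ∈ Ico (i + u) j, (1 / K - 2 * θ c + JF c) := by
    refine pch hK X.reg hi X.ij X.jK X.iu (fun c h1 h2 => X.thin c (by omega) h2.le) fun c h1 h2 => ?_
    refine Rare.mono (X.frc c (by omega) h2) (Eventually.of_forall fun a ω _ hb => ?_)
    have h3 := pow_frame F hK X.cK a
    have h4 : 4 / (2:ℝ) ^ F.n a = 4 * (1 / 2 ^ F.n a) := by ring
    rw [h4] at hb
    exact lt_of_le_of_lt (mul_le_mul_of_nonneg_left h3 (by norm_num)) hb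
  have h := H518.cts hK X.reg.toRegA
  have tNi := h.tre.tN i (X.ij.trans X.jK)
  have fdp : Sys.Fn (pD F i j u ψ) (F.N i) := Eventually.of_forall fun a ω ω' _ _ ee => by
    have e' : F.N i a ω = F.N i a ω' := ee
    unfold pD Flg.sig
    rw [e']
  have tdp := tNi.mono fdp
  have h2 := hc_le_add tNi tdp (Sys.pr (F.sig i j) (F.N j))
  have h3 : H465.dp F ψ i j u = pD F i j u ψ := rfl
  rw [h3]
  have h4 : ∑ c ∈ Ico i (i + u), (2 / K - 2 * θ c) + ∑ c ∈ Ico (i + u) j, (1 / K - 2 * θ c + JF c) =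
      2 * u / K + ((j:ℝ) - i - u) / K - 2 * ∑ c ∈ Ico i j, θ c + ∑ c ∈ Ico (i + u) j, JF c := by
    rw [← sum_Ico_consecutive (fun c => θ c) (Nat.le_add_right i u) X.iu]
    simp only [sum_add_distrib, sum_sub_distrib, sum_const, Nat.card_Ico, ← mul_sum, nsmul_eq_mul]
    rw [Nat.add_sub_cancel_left, Nat.cast_sub X.iu]
    push_cast
    ring
  rw [h4] at h1
  have h5 : 0 ≤ 2 / (K:ℝ) := by positivity
  have h6 : 2 * (u:ℝ) / K + ((j:ℝ) - i - u) / K = 2 * ((j:ℝ) - i) / K - ((j:ℝ) - i - u) / K := by ring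
  linarith

end Vale.Agent.P122.H540
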